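import Mathlib
import Vale.Agent.Lib.P328.RP.ThreeProj
import Vale.Agent.Lib.P328.RP.UnitRow

/-!
P328: a crude gap for three-row tables whose last row has sum one, for arbitrary column sums.

For `r 2 = 1` and every `f : CT 3 n r c → ℝ`

  `ip f f - ip f (R univ f) ≤ 4 * n * ∑ over the three pairs q of rows, (ip f f - ip f (R q f))`.

Proof.  Write `κ k x = row k of x`, so that `R (univ.erase k) = cexp (κ k)`.  Split
`f - mean = Φ + f0` with `Φ = cexp (κ 2) f - mean` (a function of the unit column with zero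
sum) and `f0 = f - cexp (κ 2) f`.

* `centred_bound` : for a function `Φ` of the unit column with zero sum,
  `ip Φ Φ ≤ n * (V 0 Φ + V 1 Φ)`, `V a Φ = ip Φ Φ - ip Φ (cexp (κ a) Φ)`.  Indeed `V a Φ` is
  the sum over the tables `x` of `S a x / (2 * N a x)`, where `S a x` is the sum of
  `(Φ x - Φ y) ^ 2` over the tables `y` with the same row `a` and `N a x ≤ n` is their number
  (`ip_sub_cexp_eq`, `class_card_le`); and for any two tables `x`, `x'` there is a table with
  the unit column of `x'` and the same row `0` or the same row `1` as `x`, so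
  `(Φ x - Φ x') ^ 2 ≤ S 0 x + S 1 x` (`pair_le`).
* `V a Φ ≤ 3 * V a f + (3 / 2) * V 2 f` because `Φ - cexp (κ a) Φ` is the difference of
  `f - cexp (κ a) f` and `f0 - cexp (κ a) f0`.
-/

namespace Vale.Agent.Lib.P328.RP

open Finset
open Vale.Agent.Lib.P335.Bip

namespace CrudeTriple

section general

variable {Ω K : Type*} [Fintype Ω] [DecidableEq K] (κ : Ω → K)

/-- The quadratic form of `1 - cexp κ` as a sum of squared differences inside the fibres. -/
theorem ip_sub_cexp_eq (f : Ω → ℝ) :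
    ip f f - ip f (cexp κ f)
      = ∑ x, (∑ y ∈ univ.filter (fun y => κ y = κ x), (f x - f y) ^ 2) /
          (2 * ((univ.filter (fun y => κ y = κ x)).card : ℝ)) := by
  have hpt : ∀ x, (∑ y ∈ univ.filter (fun y => κ y = κ x), (f x - f y) ^ 2) /
          (2 * ((univ.filter (fun y => κ y = κ x)).card : ℝ))
      = f x * f x / 2 - f x * cexp κ f x + cexp κ (fun y => f y ^ 2) x / 2 := by
    intro x
    have hN := fib_card_pos κ x
    rw [cexp_apply, cexp_apply]
    have h1 : ∑ y ∈ univ.filter (fun y => κ y = κ x), (f x - f y) ^ 2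
        = ((univ.filter (fun y => κ y = κ x)).card : ℝ) * (f x * f x)
          - 2 * f x * (∑ y ∈ univ.filter (fun y => κ y = κ x), f y)
          + ∑ y ∈ univ.filter (fun y => κ y = κ x), f y ^ 2 := by
      have h2 : ∀ y, (f x - f y) ^ 2 = f x * f x - 2 * f x * f y + f y ^ 2 := fun y => by ring
      rw [Finset.sum_congr rfl (fun y _ => h2 y), Finset.sum_add_distrib,
        Finset.sum_sub_distrib, Finset.sum_const, nsmul_eq_mul, ← Finset.mul_sum]
    rw [h1]
    field_simp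
  rw [Finset.sum_congr rfl (fun x _ => hpt x), Finset.sum_add_distrib, Finset.sum_sub_distrib,
    ← Finset.sum_div, ← Finset.sum_div, sum_cexp]
  unfold ip
  have h3 : ∑ x, f x ^ 2 = ∑ x, f x * f x := Finset.sum_congr rfl (fun x _ => by ring)
  rw [h3]
  ring

/-- The double sum of squared differences. -/
theorem sum_sum_sq_sub (f : Ω → ℝ) :
    ∑ x, ∑ y, (f x - f y) ^ 2
      = 2 * (Fintype.card Ω : ℝ) * ip f f - 2 * (∑ x, f x) ^ 2 := by
  have h2 : ∀ x y, (f x - f y) ^ 2 = f x * f x - 2 * f x * f y + f y * f y :=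
    fun x y => by ring
  have h3 : ∀ x, ∑ y, (f x - f y) ^ 2
      = (Fintype.card Ω : ℝ) * (f x * f x) - 2 * f x * (∑ y, f y) + ip f f := by
    intro x
    rw [Finset.sum_congr rfl (fun y _ => h2 x y), Finset.sum_add_distrib,
      Finset.sum_sub_distrib, Finset.sum_const, Finset.card_univ, nsmul_eq_mul,
      ← Finset.mul_sum]
    rfl
  rw [Finset.sum_congr rfl (fun x _ => h3 x), Finset.sum_add_distrib, Finset.sum_sub_distrib,
    ← Finset.mul_sum, Finset.sum_const, Finset.card_univ, nsmul_eq_mul]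
  have h4 : ∑ x, 2 * f x * (∑ y, f y) = 2 * (∑ x, f x) ^ 2 := by
    rw [← Finset.sum_mul, ← Finset.mul_sum]
    ring
  rw [h4]
  unfold ip
  ring

end general

variable {n : ℕ} {r : Fin 3 → ℕ} {c : Fin n → ℕ}

/-- the classes of the first two rows have at most `n` elements -/
theorem class_card_le (hr : r 2 = 1) (a : Fin 3) (ha : a ≠ 2) (x : CT 3 n r c) :
    (univ.filter (fun y : CT 3 n r c => y.1 a = x.1 a)).card ≤ n := by
  have h := Finset.card_le_card_of_injOn
    (s := univ.filter (fun y : CT 3 n r c => y.1 a = x.1 a)) (t := (univ : Finset (Fin n)))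
    (fun y => UnitRow.ucol hr y) (fun y _ => Finset.mem_coe.mpr (Finset.mem_univ _)) ?_
  · simpa using h
  · intro y hy z hz hyz
    have hy' := (Finset.mem_filter.mp (Finset.mem_coe.mp hy)).2
    have hz' := (Finset.mem_filter.mp (Finset.mem_coe.mp hz)).2
    exact UnitRow.ext_of hr a ha y z (hy'.trans hz'.symm) hyz

/-- For two tables `x`, `x'` there is a table with the unit column of `x'` in the class of
row `0` or in the class of row `1` of `x`. -/
theorem pair_le (hr : r 2 = 1) (Φ : CT 3 n r c → ℝ)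
    (hΦ : ∀ x y : CT 3 n r c, UnitRow.ucol hr x = UnitRow.ucol hr y → Φ x = Φ y)
    (x x' : CT 3 n r c) :
    (Φ x - Φ x') ^ 2 ≤
      ∑ y ∈ univ.filter (fun y : CT 3 n r c => y.1 0 = x.1 0), (Φ x - Φ y) ^ 2
      + ∑ y ∈ univ.filter (fun y : CT 3 n r c => y.1 1 = x.1 1), (Φ x - Φ y) ^ 2 := by
  have hj1 : x'.1 2 (UnitRow.ucol hr x') = 1 := UnitRow.ucol_one hr x'
  have hc' := UnitRow.col3 x' (UnitRow.ucol hr x')
  have hc := UnitRow.col3 x (UnitRow.ucol hr x')
  have h0 : ∀ a : Fin 3,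
      0 ≤ ∑ y ∈ univ.filter (fun y : CT 3 n r c => y.1 a = x.1 a), (Φ x - Φ y) ^ 2 :=
    fun a => Finset.sum_nonneg (fun y _ => sq_nonneg _)
  by_cases hlt : x.1 0 (UnitRow.ucol hr x') < c (UnitRow.ucol hr x')
  · obtain ⟨z, hz0, hzj⟩ := UnitRow.exists_table hr 0 (by decide) x _ hlt
    have hmem : z ∈ univ.filter (fun y : CT 3 n r c => y.1 0 = x.1 0) :=
      Finset.mem_filter.mpr ⟨Finset.mem_univ _, hz0⟩
    have h1 : (Φ x - Φ z) ^ 2
        ≤ ∑ y ∈ univ.filter (fun y : CT 3 n r c => y.1 0 = x.1 0), (Φ x - Φ y) ^ 2 :=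
      Finset.single_le_sum (f := fun y => (Φ x - Φ y) ^ 2) (fun y _ => sq_nonneg _) hmem
    rw [hΦ z x' hzj] at h1
    linarith [h0 1]
  · have hlt1 : x.1 1 (UnitRow.ucol hr x') < c (UnitRow.ucol hr x') := by omega
    obtain ⟨z, hz1, hzj⟩ := UnitRow.exists_table hr 1 (by decide) x _ hlt1
    have hmem : z ∈ univ.filter (fun y : CT 3 n r c => y.1 1 = x.1 1) :=
      Finset.mem_filter.mpr ⟨Finset.mem_univ _, hz1⟩
    have h1 : (Φ x - Φ z) ^ 2
        ≤ ∑ y ∈ univ.filter (fun y : CT 3 n r c => y.1 1 = x.1 1), (Φ x - Φ y) ^ 2 :=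
      Finset.single_le_sum (f := fun y => (Φ x - Φ y) ^ 2) (fun y _ => sq_nonneg _) hmem
    rw [hΦ z x' hzj] at h1
    linarith [h0 0]

/-- the sum of the class sums is at most `2 * n` times the quadratic form of `1 - cexp` -/
theorem class_sum_le (hr : r 2 = 1) (a : Fin 3) (ha : a ≠ 2) (Φ : CT 3 n r c → ℝ) :
    ∑ x : CT 3 n r c, ∑ y ∈ univ.filter (fun y : CT 3 n r c => y.1 a = x.1 a), (Φ x - Φ y) ^ 2
      ≤ 2 * (n : ℝ) * (ip Φ Φ - ip Φ (cexp (fun x : CT 3 n r c => x.1 a) Φ)) := by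
  rw [ip_sub_cexp_eq (fun x : CT 3 n r c => x.1 a) Φ, Finset.mul_sum]
  refine Finset.sum_le_sum (fun x _ => ?_)
  have hS : 0 ≤ ∑ y ∈ univ.filter (fun y : CT 3 n r c => y.1 a = x.1 a), (Φ x - Φ y) ^ 2 :=
    Finset.sum_nonneg (fun y _ => sq_nonneg _)
  have hN : (0 : ℝ) < ((univ.filter (fun y : CT 3 n r c => y.1 a = x.1 a)).card : ℝ) :=
    fib_card_pos (fun x : CT 3 n r c => x.1 a) x
  have hle : ((univ.filter (fun y : CT 3 n r c => y.1 a = x.1 a)).card : ℝ) ≤ (n : ℝ) := by
    exact_mod_cast class_card_le hr a ha x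
  rw [mul_div_assoc', le_div_iff₀ (by positivity)]
  nlinarith

/-- **Functions of the unit column with zero sum.** -/
theorem centred_bound (hr : r 2 = 1) (Φ : CT 3 n r c → ℝ)
    (hΦ : ∀ x y : CT 3 n r c, UnitRow.ucol hr x = UnitRow.ucol hr y → Φ x = Φ y)
    (hsum : ∑ x, Φ x = 0) :
    ip Φ Φ ≤ (n : ℝ) * ((ip Φ Φ - ip Φ (cexp (fun x : CT 3 n r c => x.1 0) Φ))
      + (ip Φ Φ - ip Φ (cexp (fun x : CT 3 n r c => x.1 1) Φ))) := by
  rcases isEmpty_or_nonempty (CT 3 n r c) with hE | hNE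
  · have hz : ∀ f h : CT 3 n r c → ℝ, ip f h = 0 := by
      intro f h
      unfold ip
      rw [Finset.univ_eq_empty, Finset.sum_empty]
    rw [hz, hz, hz]
    simp
  have hZ : (0 : ℝ) < (Fintype.card (CT 3 n r c) : ℝ) := by
    exact_mod_cast Fintype.card_pos
  have h1 := sum_sum_sq_sub Φ
  rw [hsum] at h1
  have h2 : ∑ x : CT 3 n r c, ∑ x' : CT 3 n r c, (Φ x - Φ x') ^ 2
      ≤ ∑ x : CT 3 n r c, ∑ _x' : CT 3 n r c,
        (∑ y ∈ univ.filter (fun y : CT 3 n r c => y.1 0 = x.1 0), (Φ x - Φ y) ^ 2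
          + ∑ y ∈ univ.filter (fun y : CT 3 n r c => y.1 1 = x.1 1), (Φ x - Φ y) ^ 2) :=
    Finset.sum_le_sum (fun x _ => Finset.sum_le_sum (fun x' _ => pair_le hr Φ hΦ x x'))
  have h3 : ∑ x : CT 3 n r c, ∑ _x' : CT 3 n r c,
        (∑ y ∈ univ.filter (fun y : CT 3 n r c => y.1 0 = x.1 0), (Φ x - Φ y) ^ 2
          + ∑ y ∈ univ.filter (fun y : CT 3 n r c => y.1 1 = x.1 1), (Φ x - Φ y) ^ 2)
      = (Fintype.card (CT 3 n r c) : ℝ) *
        (∑ x : CT 3 n r c,
            ∑ y ∈ univ.filter (fun y : CT 3 n r c => y.1 0 = x.1 0), (Φ x - Φ y) ^ 2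
          + ∑ x : CT 3 n r c,
            ∑ y ∈ univ.filter (fun y : CT 3 n r c => y.1 1 = x.1 1), (Φ x - Φ y) ^ 2) := by
    rw [← Finset.sum_add_distrib, Finset.mul_sum]
    refine Finset.sum_congr rfl (fun x _ => ?_)
    rw [Finset.sum_const, Finset.card_univ, nsmul_eq_mul]
  have h4 := class_sum_le hr 0 (by decide) Φ
  have h5 := class_sum_le hr 1 (by decide) Φ
  rw [h1, h3] at h2
  have h6 : 2 * ip Φ Φ ≤ 2 * (n : ℝ) * (ip Φ Φ - ip Φ (cexp (fun x : CT 3 n r c => x.1 0) Φ))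
      + 2 * (n : ℝ) * (ip Φ Φ - ip Φ (cexp (fun x : CT 3 n r c => x.1 1) Φ)) := by
    have h7 : (Fintype.card (CT 3 n r c) : ℝ) * (2 * ip Φ Φ)
        ≤ (Fintype.card (CT 3 n r c) : ℝ) *
          (2 * (n : ℝ) * (ip Φ Φ - ip Φ (cexp (fun x : CT 3 n r c => x.1 0) Φ))
            + 2 * (n : ℝ) * (ip Φ Φ - ip Φ (cexp (fun x : CT 3 n r c => x.1 1) Φ))) := by
      have h8 := mul_le_mul_of_nonneg_left (add_le_add h4 h5) hZ.le
      have h9 : (Fintype.card (CT 3 n r c) : ℝ) * (2 * ip Φ Φ)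
          = 2 * (Fintype.card (CT 3 n r c) : ℝ) * ip Φ Φ - 2 * 0 ^ 2 := by ring
      rw [h9]
      exact le_trans h2 h8
    exact le_of_mul_le_mul_left h7 hZ
  linarith

/-- `(p - q) ^ 2 ≤ 3 * p ^ 2 + (3 / 2) * q ^ 2`, summed -/
theorem ip_sub_le {Ω : Type*} [Fintype Ω] (p q : Ω → ℝ) :
    ip (p - q) (p - q) ≤ 3 * ip p p + (3 / 2) * ip q q := by
  unfold ip
  rw [Finset.mul_sum, Finset.mul_sum, ← Finset.sum_add_distrib]
  refine Finset.sum_le_sum (fun x _ => ?_)
  simp only [Pi.sub_apply]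
  nlinarith [sq_nonneg (2 * p x + q x)]

end CrudeTriple

open CrudeTriple in
/-- **Crude gap for three rows with a unit last row, in terms of conditional expectations.** -/
theorem crude_triple_cexp {n : ℕ} (r : Fin 3 → ℕ) (c : Fin n → ℕ) (hr : r 2 = 1)
    (f : CT 3 n r c → ℝ) :
    ip f f - (∑ x, f x) ^ 2 / (Fintype.card (CT 3 n r c) : ℝ)
      ≤ 4 * (n : ℝ) * ∑ k : Fin 3, (ip f f - ip f (cexp (fun x : CT 3 n r c => x.1 k) f)) := by
  classical
  rcases isEmpty_or_nonempty (CT 3 n r c) with hE | hNE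
  · have hz : ∀ f h : CT 3 n r c → ℝ, ip f h = 0 := by
      intro f h
      unfold ip
      rw [Finset.univ_eq_empty, Finset.sum_empty]
    have hs : ∑ x, f x = 0 := by rw [Finset.univ_eq_empty, Finset.sum_empty]
    have hk : ∀ k : Fin 3,
        (0 : ℝ) - ip f (cexp (fun x : CT 3 n r c => x.1 k) f) = 0 := fun k => by
      rw [hz]
      ring
    rw [hz f f, hs, Finset.sum_congr rfl (fun k _ => hk k)]
    simp
  obtain ⟨x0⟩ := hNE
  have hn : (1 : ℝ) ≤ (n : ℝ) := by
    have : 0 < n := (UnitRow.ucol hr x0).pos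
    exact_mod_cast this
  have hZ : (0 : ℝ) < (Fintype.card (CT 3 n r c) : ℝ) := by
    have : Nonempty (CT 3 n r c) := ⟨x0⟩
    exact_mod_cast Fintype.card_pos
  -- the mean, the part depending on the unit column, and the rest
  obtain ⟨m, hm⟩ : ∃ m : ℝ, m = (∑ x, f x) / (Fintype.card (CT 3 n r c) : ℝ) := ⟨_, rfl⟩
  obtain ⟨Φ, hΦdef⟩ : ∃ Φ : CT 3 n r c → ℝ,
      Φ = cexp (fun x : CT 3 n r c => x.1 2) f - fun _ => m := ⟨_, rfl⟩
  obtain ⟨f0, hf0def⟩ : ∃ f0 : CT 3 n r c → ℝ,
      f0 = f - cexp (fun x : CT 3 n r c => x.1 2) f := ⟨_, rfl⟩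
  have hconst : ∀ k : Fin 3, cexp (fun x : CT 3 n r c => x.1 k) (fun _ => m) = fun _ => m :=
    fun k => cexp_of_factor _ (fun _ _ _ => rfl)
  -- `Φ` is a function of the unit column
  have hΦ : ∀ x y : CT 3 n r c, UnitRow.ucol hr x = UnitRow.ucol hr y → Φ x = Φ y := by
    intro x y hxy
    have hrow : x.1 2 = y.1 2 := by
      funext l
      rw [UnitRow.row2_apply hr x l, UnitRow.row2_apply hr y l, hxy]
    rw [hΦdef]
    show cexp (fun x : CT 3 n r c => x.1 2) f x - m = cexp (fun x : CT 3 n r c => x.1 2) f y - m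
    rw [cexp_congr (fun x : CT 3 n r c => x.1 2) hrow f]
  -- its sum is zero
  have hsumΦ : ∑ x, Φ x = 0 := by
    rw [hΦdef]
    show ∑ x, (cexp (fun x : CT 3 n r c => x.1 2) f x - m) = 0
    rw [Finset.sum_sub_distrib, sum_cexp, Finset.sum_const, Finset.card_univ, nsmul_eq_mul, hm]
    field_simp
    ring
  -- the variance splits
  have hV2 : ip f0 f0 = ip f f - ip f (cexp (fun x : CT 3 n r c => x.1 2) f) := by
    rw [hf0def]
    exact ip_sub_cexp _ f
  have hΦΦ : ip Φ Φ = ip f (cexp (fun x : CT 3 n r c => x.1 2) f)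
      - (∑ x, f x) ^ 2 / (Fintype.card (CT 3 n r c) : ℝ) := by
    have h1 : ip Φ Φ = ip (cexp (fun x : CT 3 n r c => x.1 2) f)
          (cexp (fun x : CT 3 n r c => x.1 2) f)
        - 2 * m * (∑ x, cexp (fun x : CT 3 n r c => x.1 2) f x)
        + (Fintype.card (CT 3 n r c) : ℝ) * m ^ 2 := by
      rw [hΦdef]
      unfold ip
      have h2 : ∀ x : CT 3 n r c,
          (cexp (fun x : CT 3 n r c => x.1 2) f - fun _ : CT 3 n r c => m) x
            * (cexp (fun x : CT 3 n r c => x.1 2) f - fun _ : CT 3 n r c => m) x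
          = cexp (fun x : CT 3 n r c => x.1 2) f x * cexp (fun x : CT 3 n r c => x.1 2) f x
            - 2 * m * cexp (fun x : CT 3 n r c => x.1 2) f x + m ^ 2 := by
        intro x
        simp only [Pi.sub_apply]
        ring
      rw [Finset.sum_congr rfl (fun x _ => h2 x), Finset.sum_add_distrib,
        Finset.sum_sub_distrib, ← Finset.mul_sum, Finset.sum_const, Finset.card_univ,
        nsmul_eq_mul]
    rw [h1, sum_cexp, ← ip_cexp_self, hm]
    field_simp
    ring
  -- the two projections of `Φ`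
  have hVa : ∀ a : Fin 3, ip Φ Φ - ip Φ (cexp (fun x : CT 3 n r c => x.1 a) Φ)
      ≤ 3 * (ip f f - ip f (cexp (fun x : CT 3 n r c => x.1 a) f))
        + (3 / 2) * (ip f f - ip f (cexp (fun x : CT 3 n r c => x.1 2) f)) := by
    intro a
    have hdiff : Φ - cexp (fun x : CT 3 n r c => x.1 a) Φ
        = (f - cexp (fun x : CT 3 n r c => x.1 a) f)
          - (f0 - cexp (fun x : CT 3 n r c => x.1 a) f0) := by
      rw [hΦdef, hf0def, map_sub, map_sub, hconst a]
      abel
    have h1 := ip_sub_le (f - cexp (fun x : CT 3 n r c => x.1 a) f)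
      (f0 - cexp (fun x : CT 3 n r c => x.1 a) f0)
    rw [← hdiff, ip_sub_cexp, ip_sub_cexp, ip_sub_cexp] at h1
    have h2 := ip_cexp_self_nonneg (fun x : CT 3 n r c => x.1 a) f0
    rw [hV2] at h1
    linarith
  have hcb := centred_bound hr Φ hΦ hsumΦ
  have hV0 := hVa 0
  have hV1 := hVa 1
  have hnn : ∀ k : Fin 3, 0 ≤ ip f f - ip f (cexp (fun x : CT 3 n r c => x.1 k) f) := by
    intro k
    have := ip_cexp_le (fun x : CT 3 n r c => x.1 k) f
    linarith
  have h0 := hnn 0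
  have h1 := hnn 1
  have h2 := hnn 2
  rw [Fin.sum_univ_three]
  have hn0 : (0 : ℝ) ≤ (n : ℝ) := by linarith
  have key : ip Φ Φ ≤ (n : ℝ) * (3 * (ip f f - ip f (cexp (fun x : CT 3 n r c => x.1 0) f))
      + 3 * (ip f f - ip f (cexp (fun x : CT 3 n r c => x.1 1) f))
      + 3 * (ip f f - ip f (cexp (fun x : CT 3 n r c => x.1 2) f))) := by
    refine le_trans hcb (mul_le_mul_of_nonneg_left ?_ hn0)
    linarith
  have hsplit : ip f f - (∑ x, f x) ^ 2 / (Fintype.card (CT 3 n r c) : ℝ)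
      = ip Φ Φ + (ip f f - ip f (cexp (fun x : CT 3 n r c => x.1 2) f)) := by
    rw [hΦΦ]
    ring
  rw [hsplit]
  nlinarith

/-- **Crude gap for three rows with a unit last row** (arbitrary column sums): the variance is
at most `4 * n` times the sum over the three pairs of rows of the quadratic forms of
`1 - R q`. -/
theorem crude_triple {n : ℕ} (r : Fin 3 → ℕ) (c : Fin n → ℕ) (hr : r 2 = 1)
    (f : CT 3 n r c → ℝ) :
    ip f f - ip f (R univ f)
      ≤ 4 * (n : ℝ) *
        ∑ q ∈ (univ : Finset (Fin 3)).powersetCard 2, (ip f f - ip f (R q f)) := by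
  rw [ThreeTwo.sum_pairs (fun q => ip f f - ip f (R q f)), ip_R_univ]
  have h := crude_triple_cexp r c hr f
  have h2 : ∀ k : Fin 3, ip f f - ip f (R (univ.erase k) f)
      = ip f f - ip f (cexp (fun x : CT 3 n r c => x.1 k) f) := by
    intro k
    rw [R_erase_eq]
  rw [Finset.sum_congr rfl (fun k _ => h2 k)]
  exact h

/-- When the last row has sum zero, resampling the first two rows is the global average. -/
theorem R_erase_two_of_zero {n : ℕ} (r : Fin 3 → ℕ) (c : Fin n → ℕ) (hr : r 2 = 0) :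
    (R (univ.erase 2) : (CT 3 n r c → ℝ) →ₗ[ℝ] (CT 3 n r c → ℝ)) = R univ := by
  rw [R_erase_eq]
  unfold R
  apply cexp_congr_ker
  intro x y
  have hrow : ∀ z : CT 3 n r c, z.1 2 = fun _ => 0 := by
    intro z
    funext l
    have hs : ∑ j, z.1 2 j = 0 := by rw [z.2.1 2, hr]
    exact (Finset.sum_eq_zero_iff.mp hs) l (Finset.mem_univ l)
  constructor
  · intro _
    rw [mask_eq_iff]
    intro i hi
    exact absurd (Finset.mem_univ i) hi
  · intro _
    rw [hrow x, hrow y]

/-- **Crude gap for three rows whose last row has sum at most one** (arbitrary column sums):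
the variance is at most `4 * n` times the sum over the three pairs of rows of the quadratic
forms of `1 - R q`. -/
theorem crude_triple_le {n : ℕ} (r : Fin 3 → ℕ) (c : Fin n → ℕ) (hr : r 2 ≤ 1)
    (f : CT 3 n r c → ℝ) :
    ip f f - ip f (R univ f)
      ≤ 4 * (n : ℝ) *
        ∑ q ∈ (univ : Finset (Fin 3)).powersetCard 2, (ip f f - ip f (R q f)) := by
  rcases Nat.lt_or_ge (r 2) 1 with hz | hge
  swap
  · exact crude_triple r c (le_antisymm hr hge) f
  have hr0 : r 2 = 0 := by omega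
  rw [ThreeTwo.sum_pairs (fun q => ip f f - ip f (R q f))]
  have hnn : ∀ k : Fin 3, 0 ≤ ip f f - ip f (R (univ.erase k) f) := by
    intro k
    rw [R_erase_eq]
    have := ip_cexp_le (fun x : CT 3 n r c => x.1 k) f
    linarith
  have h2 : ip f f - ip f (R univ f) = ip f f - ip f (R (univ.erase 2) f) := by
    rw [R_erase_two_of_zero r c hr0]
  rcases Nat.eq_zero_or_pos n with hn0 | hnpos
  · -- no columns: at most one table
    subst hn0
    have hsub : ∀ x y : CT 3 0 r c, x = y := by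
      intro x y
      apply Subtype.ext
      funext i j
      exact j.elim0
    have hfix : R (univ : Finset (Fin 3)) f = f := by
      funext x
      rw [R_univ_apply]
      have hfy : ∀ y : CT 3 0 r c, f y = f x := fun y => by rw [hsub y x]
      have hs : ∑ y : CT 3 0 r c, f y = (Fintype.card (CT 3 0 r c) : ℝ) * f x := by
        rw [Finset.sum_congr rfl (fun y _ => hfy y), Finset.sum_const,
          Finset.card_univ, nsmul_eq_mul]
      have hZ : (0 : ℝ) < (Fintype.card (CT 3 0 r c) : ℝ) := by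
        have : Nonempty (CT 3 0 r c) := ⟨x⟩
        exact_mod_cast Fintype.card_pos
      rw [hs]
      field_simp
    rw [hfix]
    simp
  · have hn1 : (1 : ℝ) ≤ (n : ℝ) := by exact_mod_cast hnpos
    rw [Fin.sum_univ_three, h2]
    have h0 := hnn 0
    have h1 := hnn 1
    have h2' := hnn 2
    nlinarith

end Vale.Agent.Lib.P328.RP
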